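import Vale.Agent.P207.N4.H248.JTop
import Vale.Agent.P207.N4.Geo.CoreP
import Vale.Agent.P207.N4.Geo.LogicB
import Vale.Agent.P207.N4.H709.BunE

/-!
# P207: constant curvature from the logic, for strictly bunched metrics

`core_of_caseJ` : the top, with the frame map of the leaf structure. `core_of_logicB`,
`core_of_bunched_n` : constant curvature from the logic, if the unstable Jacobi fields are strictly
`2`-bunched.
-/

open scoped Manifold ContDiff ENNReal Topology Matrix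
open Bundle MeasureTheory Set Filter

set_option maxSynthPendingDepth 3
set_option linter.unusedSectionVars false

noncomputable section

namespace Vale.Agent.P207.N4

open Vale.Agent.P207.N3

variable [Dim]

open Vale.Agent.P255 (RMetric Npc coefIn Gam Riem)
open Vale.Agent.P207.N4.Q Vale.Agent.P207.Q Vale.Agent.P207.Q.H130 Vale.Agent.P207.Q.H892
open Vale.Agent.P207F (ConstCurvature Bunched Growth)
open H465 (Deck PB Mt toMt ofMt Xt homeoMt)
open H156 (geoA Dk fl co jA)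
open H607 (geoInL rieA)

section Suit

variable {M : Type} [TopologicalSpace M] [ChartedSpace (EV (Dim.m + 1)) M]
  [IsManifold 𝓘(ℝ, EV (Dim.m + 1)) ∞ M]
  [CompactSpace M] [T2Space M] [ConnectedSpace M] {g : RMetric (EV (Dim.m + 1)) M} [Nonempty (Fr g)]
  {hN : NegCurvature g} {m : M} {I : (geoA hN m).In3 (jA (npc_of_neg hN) m)} {r₀ t₁ χ : ℝ}
  (hc : H76.Geo.Cst I r₀ t₁ χ) (o : Mt (sys g (npc_of_neg hN)) m)
  {D : MDat g ((horFlows g).Φ 0)}
  (C : H618.Conn (geoInL hc (rieA hN m) o) (ukL hc o D).U)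

include C in
/-- **all the structures at one base point**, with the entropy and the frame map -/
theorem exists_suiteJ {h : ℝ} (hh : 0 < h) (R : RDat D h)
    (hX : GeoX (geoInL hc (rieA hN m) o))
    (hO : ∀ S : Suite (hc.leaf o) (EV (Dim.m + 1)), S.A.h = h → H618.Conn S.I S.M.U →
      (∀ x v, D.lam * ‖v‖ ^ 2 ≤ inner ℝ (S.M.U x v) v) →
      (∀ x v, inner ℝ (S.M.U x v) v ≤ D.Lam * ‖v‖ ^ 2) →
      H248J.FrM D S.M (frm (h := npc_of_neg hN) (m := m)) →
      H662.Calib (hc.leaf o) S.A → NuB S.A) :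
    Nonempty (BSuite D R ((sys g (npc_of_neg hN)).e m (ofMt _ _ o)) (Dk (npc_of_neg hN) m)
      (Xt g (npc_of_neg hN) m) ((geoA hN m).Bnd o)) := by
  obtain ⟨A, hAh, hAs⟩ := exists_areaL hc o C hh R
  obtain ⟨f, hf⟩ := H892.exists_frame g ((sys g (npc_of_neg hN)).e m (ofMt _ _ o))
  set x₀ : Xt g (npc_of_neg hN) m := PB.mk (ofMt _ _ o) f hf.symm with hx₀
  have hft : (geoA hN m).ft x₀ = o := rfl
  have hU : ∀ x, C.metr.U x = H618.cl (D.U (frm x)) := fun x => rfl
  have hcal : H662.Calib (hc.leaf o) A :=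
    H709.calibR (geoInL hc (rieA hN m) o) (over_leaf hc o) R hU C.metr_hess hAs
      (D_le_of hX A) (b_base hc o hft)
  have hFr : H248J.FrM D (suiteOf hc o C R hX A hAs x₀).M (frm (h := npc_of_neg hN) (m := m)) :=
    ⟨(horFlows g).hor 0, (over_leaf hc o).flow, hU⟩
  refine ⟨⟨hc.leaf o, A, hAh, hO (suiteOf hc o C R hX A hAs x₀) hAh C (metr_lo hc o C)
    (metr_hi hc o C) hFr hcal, ?_⟩⟩
  have h1 := H546.mass_le ((horFlows g).hor 0) (over_leaf hc o) (geoInL hc (rieA hN m) o) R hU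
    C.metr_hess hAs (link_frm hc o) (b_base hc o hft)
  have h2 : (frm x₀).pt = (sys g (npc_of_neg hN)).e m (ofMt _ _ o) := hf
  rw [h2] at h1
  rwa [two_pow_sphm]

end Suit

variable {M : Type} [TopologicalSpace M] [ChartedSpace (EV (Dim.m + 1)) M]
  [IsManifold 𝓘(ℝ, EV (Dim.m + 1)) ∞ M]
  [CompactSpace M] [T2Space M] [ConnectedSpace M] {g : RMetric (EV (Dim.m + 1)) M}

/-- **the top, from the logic only**, with the entropy and the frame map -/
theorem core_of_caseJ [Nonempty (Fr g)] [MeasurableSpace M] [BorelSpace M]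
    (hN : NegCurvature g) {φ : ℝ → UT g → UT g} (hφ : IsGeoFlow g φ) {μ : Measure M}
    {m : Measure (UT g)} (hμ : IsRiemVol g μ) (hm : IsLiouville g μ m)
    (heq : ksEntropy m (φ 1) = topEntropy (φ 1)) (D : MDat g ((horFlows g).Φ 0))
    (hO : ∀ (m₀ : M) (F : Full hN D m₀)
      (o : Mt (sys g (npc_of_neg hN)) m₀) (S : Suite (F.hc.leaf o) (EV (Dim.m + 1))),
        S.A.h = (topEntropy (φ 1)).toReal → H618.Conn S.I S.M.U →
        (∀ x v, D.lam * ‖v‖ ^ 2 ≤ inner ℝ (S.M.U x v) v) →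
        (∀ x v, inner ℝ (S.M.U x v) v ≤ D.Lam * ‖v‖ ^ 2) →
        H248J.FrM D S.M (frm (h := npc_of_neg hN) (m := m₀)) →
        H662.Calib (F.hc.leaf o) S.A → NuB S.A) :
    ∃ κ, ConstCurvature g κ := by
  refine core_of_bounds hN hφ hμ hm heq D ?_ (fun R p => ?_)
  · obtain ⟨f⟩ := ‹Nonempty (Fr g)›
    obtain ⟨F⟩ := exists_full hN D f.pt
    obtain ⟨ν₀, -, h⟩ := H348.hopfAC_model hN f.pt F.hc
      (toMt (sys g (npc_of_neg hN)) f.pt 0) D hφ hμ hm
    exact F.exists_rdat hφ hμ hm heq _ h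
  · obtain ⟨F⟩ := exists_full hN D p
    have hh := (exists_psi_N3 ((horFlows g).hor 0) D hN hφ hμ hm heq).1
    obtain ⟨S⟩ := exists_suiteJ F.hc (toMt (sys g (npc_of_neg hN)) p 0) (F.C _) hh R (F.X _)
      (hO p F _)
    have h1 := S.bound
    have h2 : (sys g (npc_of_neg hN)).e p (ofMt _ _ (toMt (sys g (npc_of_neg hN)) p 0)) = p :=
      (sys g (npc_of_neg hN)).zero p
    rwa [h2] at h1

/-- **Core** for the strictly bunched metrics, from the logic, in the dimension `Dim.m + 1`. -/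
theorem core_of_logicB (hL : LogicB) [MeasurableSpace M] [BorelSpace M]
    (g : RMetric (EV (Dim.m + 1)) M) (hN : NegCurvature g) (hB : Bunched g)
    (φ : ℝ → P207.UT g → P207.UT g) (μ : Measure M) (m : Measure (P207.UT g))
    (hφ : P207.IsGeoFlow g φ) (hμ : P207.IsRiemVol g μ) (hm : P207.IsLiouville g μ m)
    (heq : P207.ksEntropy m (φ 1) = P207.topEntropy (φ 1)) :
    ∃ κ, ConstCurvature g κ := by
  obtain ⟨hsc, hne, -⟩ := Vale.Agent.P207.H582.exists_setting hφ hμ hm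
  obtain ⟨lam, Lam, hl, hle, hb⟩ :=
    Vale.Agent.P207.H832.N4.exists_Km_neg (P207F.negCurvature_iff.2 hN)
  obtain ⟨D, hD1, hD2⟩ := exists_MDat_of hl hle hb hφ
  refine core_of_caseJ hN hφ hμ hm heq D (fun m₀ F o S hSh hC hlo hhi hFr hcal => ?_)
  rw [hD1] at hlo
  rw [hD2] at hhi
  exact hL _ S hC lam Lam hl hle hlo hhi
    (H709.bunM_of_each S.M hl hlo hhi (H248J.bunched_L hFr hB)) hcal

end Vale.Agent.P207.N4

namespace Vale.Agent.P207.N4

open Vale.Agent.P255 (RMetric)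
open Vale.Agent.P207F (ConstCurvature Bunched)

/-- **Core** for the strictly bunched metrics, from the logic, in all dimensions `n ≥ 3`. -/
theorem core_of_bunched_n {n : ℕ} (hn : 3 ≤ n) (hL : ∀ [Dim], LogicB)
    {M : Type} [TopologicalSpace M] [ChartedSpace (EV n) M]
    [IsManifold 𝓘(ℝ, EV n) ∞ M] [CompactSpace M] [T2Space M] [ConnectedSpace M]
    [MeasurableSpace M] [BorelSpace M] (g : RMetric (EV n) M) (hN : P207.NegCurvature g)
    (hB : Bunched g)
    (φ : ℝ → P207.UT g → P207.UT g) (μ : Measure M) (m : Measure (P207.UT g))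
    (hφ : P207.IsGeoFlow g φ) (hμ : P207.IsRiemVol g μ) (hm : P207.IsLiouville g μ m)
    (heq : P207.ksEntropy m (φ 1) = P207.topEntropy (φ 1)) : ∃ κ, ConstCurvature g κ := by
  obtain ⟨k, rfl⟩ : ∃ k, n = k + 1 := ⟨n - 1, by omega⟩
  have h2 : 2 ≤ k := by omega
  exact @core_of_logicB (Dim.mk k h2) M _ _ _ _ _ _ (@hL (Dim.mk k h2)) _ _ g hN hB φ μ m
    hφ hμ hm heq

end Vale.Agent.P207.N4

namespace Vale.Agent.P207F.QN

open Vale.Agent.P255 (RMetric innerAt coefIn Gam Riem IsGeo)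
open Vale.Agent.P207F

variable {n : ℕ} {M : Type} [TopologicalSpace M] [CompactSpace M] [T2Space M] [ConnectedSpace M]
  [ChartedSpace (EV n) M] [IsManifold 𝓘(ℝ, EV n) ∞ M] [MeasurableSpace M] [BorelSpace M]

/-- the final statement for the strictly bunched metrics, from the logic -/
theorem final_bunched (hn : 3 ≤ n) (hB : ∀ [P207.N4.Dim], P207.N4.LogicB) :
    (∀ g : RMetric (EV n) M, WellDefined (stdB n) g) ∧
    ∀ g : RMetric (EV n) M, NegCurvature g ∧ Bunched g →
      NegCurvature g ∧ hLiou (stdB n) g ≤ hTop g ∧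
      (hLiou (stdB n) g = hTop g ↔ LocSymmetric g) ∧
      (hLiou (stdB n) g = hTop g ↔ ∃ κ : ℝ, 0 < κ ∧ ConstCurvature g κ) :=
  final_n (P := fun g : RMetric (EV n) M => NegCurvature g ∧ Bunched g) (by omega)
    (fun _ h => h.1)
    (fun g hp φ μ m hφ hμ hm heq =>
      P207.N4.core_of_bunched_n hn hB g (P207F.negCurvature_iff.1 hp.1) hp.2 φ μ m hφ hμ hm heq)

end Vale.Agent.P207F.QN
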