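import Vale.Agent.P207.H832.N4.UR
import Vale.Agent.P207.BlkK1
import Vale.Agent.P207.H248.JDefs

/-!
# P207: Jacobi fields along the orbits of the frame flow
-/

open scoped Manifold ContDiff ENNReal Topology Matrix
open Bundle MeasureTheory Set Filter

set_option maxSynthPendingDepth 3
set_option linter.unusedSectionVars false

noncomputable section

namespace Vale.Agent.P207.N4.H248J

open Vale.Agent.P255 (RMetric coefIn Gam Riem IsGeo IsJac CovDer fieldIn curveIn innerAt Metric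
  trans coefL chris chrisB IsMetricOn cc)
open Vale.Agent.P207 Vale.Agent.P207.Q Vale.Agent.P207.Q.H130
open Vale.Agent.P207.Q.H892 Vale.Agent.P207.Q.H545
open Vale.Agent.P207.Q.H545 (Rf)

/-- expansion in an orthonormal family of `n` vectors -/
theorem expand_orth {n : ℕ} [NeZero n] (B : EV n →L[ℝ] EV n →L[ℝ] ℝ) (e : Fin n → EV n)
    (he : ∀ i j, B (e i) (e j) = if i = j then 1 else 0) (v : EV n) :
    v = ∑ i, B v (e i) • e i := by
  have hli : LinearIndependent ℝ e := by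
    rw [Fintype.linearIndependent_iff]
    intro c hc i
    have h1 : B (∑ j, c j • e j) (e i) = c i := by
      simp [map_sum, map_smul, he]
    rw [hc] at h1
    simpa using h1.symm
  let b := basisOfLinearIndependentOfCardEqFinrank hli (by simp)
  have hb : ∀ i, b i = e i := fun i => by simp [b]
  have h1 : ∀ i, B v (e i) = b.repr v i := by
    intro i
    conv_lhs => rw [← b.sum_repr v]
    simp [hb, he, map_sum, map_smul]
  simp only [h1]
  conv_lhs => rw [← b.sum_repr v]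
  simp only [hb]

theorem covDer_congr {n : ℕ} {G : EV n → EV n → EV n → ℝ} {c Y Z : ℝ → EV n} {t : ℝ}
    (h : Y =ᶠ[𝓝 t] Z) : CovDer G c Y t = CovDer G c Z t := by
  unfold CovDer
  rw [h.deriv_eq, h.self_of_nhds]

variable {m : ℕ} {M : Type} [TopologicalSpace M] [ChartedSpace (EV (m + 1)) M]
  [IsManifold 𝓘(ℝ, EV (m + 1)) ∞ M] {g : RMetric (EV (m + 1)) M}

/-- the `i`-th vector of the frame in the chart at `a` -/
def ec (a : M) (f : Fr g) (i : Fin (m + 1)) : EV (m + 1) := (chF a f.1).2 i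

theorem coef_ec (a : M) (f : Fr g) (hf : f.pt ∈ (chartAt (EV (m + 1)) a).source)
    (i j : Fin (m + 1)) :
    (mt g).coef a (chF a f.1).1 (ec a f i) (ec a f j) = if i = j then 1 else 0 := by
  have h1 := inner_chF g a (f := f.1) hf i j
  exact h1.trans (f.inner_e i j)

/-- the curvature of the frame in the chart at `a` -/
theorem curv_ec (a : M) (f : Fr g) (hf : f.pt ∈ (chartAt (EV (m + 1)) a).source)
    (i : Fin m) :
    D1.curvT ((mt g).coef a) (chF a f.1).1 (ec a f i.succ) (ec a f 0) (ec a f 0) =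
      - ∑ j : Fin m, Km g f i j • ec a f j.succ := by
  have h1 := expand_orth ((mt g).coef a (chF a f.1).1) (ec a f) (coef_ec a f hf)
    (D1.curvT ((mt g).coef a) (chF a f.1).1 (ec a f i.succ) (ec a f 0) (ec a f 0))
  have h2 : ∀ j, (mt g).coef a (chF a f.1).1
      (D1.curvT ((mt g).coef a) (chF a f.1).1 (ec a f i.succ) (ec a f 0) (ec a f 0)) (ec a f j) =
      Rf g f i.succ 0 0 j := fun j => (Rf_eq f i.succ 0 0 j hf).symm
  have h3 : Rf g f i.succ 0 0 0 = 0 := by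
    rw [Rf_eq f i.succ 0 0 0 hf]
    have h4 := D1.curvT_skew ((mt g).isMetricOn a)
      ((chartAt (EV (m + 1)) a).map_source hf) (ec a f i.succ) (ec a f 0) (ec a f 0) (ec a f 0)
    change _ = - _ at h4
    have h5 : ∀ x : ℝ, x = -x → x = 0 := fun x hx => by linarith
    exact h5 _ h4
  rw [h1]
  simp only [h2]
  rw [Fin.sum_univ_succ, h3, zero_smul, zero_add, ← Finset.sum_neg_distrib]
  refine Finset.sum_congr rfl fun j _ => ?_
  change _ = -(-Rf g f i.succ 0 0 j.succ • ec a f j.succ)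
  rw [neg_smul, neg_neg]

variable {Φ : ℝ → Fr g → Fr g}

/-- the field with the components `y` in the moving frame -/
def Jf (Φ : ℝ → Fr g → Fr g) (f : Fr g) (y : ℝ → Fin m → ℝ) (t : ℝ) :
    TangentSpace 𝓘(ℝ, EV (m + 1)) (Φ t f).pt :=
  (∑ i, y t i • (Φ t f).e i.succ : EV (m + 1))

theorem fieldIn_Jf (f : Fr g) (y : ℝ → Fin m → ℝ) (a : M) (t : ℝ)
    (ha : (Φ t f).pt ∈ (chartAt (EV (m + 1)) a).source) :
    fieldIn (fun t => (Φ t f).pt) (Jf Φ f y) a t = ∑ i, y t i • ec a (Φ t f) i.succ := by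
  unfold fieldIn
  have h1 := mfderiv_chart_eq (n := m + 1) a ha
  have h2 : (mfderiv 𝓘(ℝ, EV (m + 1)) 𝓘(ℝ, EV (m + 1)) (chartAt (EV (m + 1)) a) (Φ t f).pt
      (Jf Φ f y t) : EV (m + 1)) =
      fderiv ℝ (trans (EV (m + 1)) (Φ t f).pt a) (chartAt (EV (m + 1)) (Φ t f).pt (Φ t f).pt)
        (∑ i, y t i • (Φ t f).e i.succ : EV (m + 1)) :=
    congrArg (fun L : EV (m + 1) →L[ℝ] EV (m + 1) => L (∑ i, y t i • (Φ t f).e i.succ)) h1
  refine h2.trans ?_
  rw [map_sum]
  refine Finset.sum_congr rfl fun i _ => ?_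
  rw [map_smul]
  rfl


/-! ### covariant derivatives along an orbit of the frame flow -/

theorem hasDerivAt_ec (hΦ : IsHorFlow g (Pi.single 0 1) Φ) (f : Fr g) (a : M) {t : ℝ}
    (ha : (Φ t f).pt ∈ (chartAt (EV (m + 1)) a).source) (j : Fin (m + 1)) :
    HasDerivAt (fun r => ec a (Φ r f) j)
      (-(chrisB ((mt g).coef a) (chF a (Φ t f).1).1 (ec a (Φ t f) 0) (ec a (Φ t f) j))) t := by
  have h1 := (hasDerivAt_pi.1 ((hΦ f).2.eqn a t (mem_univ t) ha).snd) j
  refine h1.congr_deriv ?_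
  simp only [hF, Pi.single_apply, ite_smul, one_smul, zero_smul, Finset.sum_ite_eq',
    Finset.mem_univ, if_true]
  rw [P255.chrisB_apply]
  rfl

theorem cov_sum (hΦ : IsHorFlow g (Pi.single 0 1) Φ) (f : Fr g) (a : M) {t : ℝ}
    (ha : (Φ t f).pt ∈ (chartAt (EV (m + 1)) a).source) {y : ℝ → Fin m → ℝ} {z : Fin m → ℝ}
    (hy : ∀ i, HasDerivAt (fun s => y s i) (z i) t) :
    DifferentiableAt ℝ (fun r => ∑ i, y r i • ec a (Φ r f) i.succ) t ∧
    CovDer (coefIn g a) (curveIn (fun t => (Φ t f).pt) a)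
      (fun r => ∑ i, y r i • ec a (Φ r f) i.succ) t = ∑ i, z i • ec a (Φ t f) i.succ := by
  have h1 : HasDerivAt (fun r => ∑ i, y r i • ec a (Φ r f) i.succ)
      (∑ i, (y t i • (-(chrisB ((mt g).coef a) (chF a (Φ t f).1).1 (ec a (Φ t f) 0)
        (ec a (Φ t f) i.succ))) + z i • ec a (Φ t f) i.succ)) t :=
    HasDerivAt.fun_sum fun i _ => (hy i).smul (hasDerivAt_ec hΦ f a ha i.succ)
  refine ⟨h1.differentiableAt, ?_⟩
  have h2 : HasDerivAt (curveIn (E := EV (m + 1)) (fun t => (Φ t f).pt) a) (ec a (Φ t f) 0) t :=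
    (hΦ f).2.deriv_cc ha
  unfold CovDer
  rw [h1.deriv, h2.deriv]
  have h3 : Gam (coefIn g a) (curveIn (E := EV (m + 1)) (fun t => (Φ t f).pt) a t)
      (ec a (Φ t f) 0) (∑ i, y t i • ec a (Φ t f) i.succ) =
      chrisB ((mt g).coef a) (chF a (Φ t f).1).1 (ec a (Φ t f) 0)
        (∑ i, y t i • ec a (Φ t f) i.succ) :=
    D1.gam_mt g a ((chartAt (EV (m + 1)) a).map_source ha) _ _
  rw [h3]
  simp only [map_sum, map_smul, smul_neg, Finset.sum_add_distrib, Finset.sum_neg_distrib]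
  abel

/-- **The Jacobi equation.** -/
theorem isJac_Jf [T2Space M] (hΦ : IsHorFlow g (Pi.single 0 1) Φ) (f : Fr g) {y z : ℝ → Fin m → ℝ}
    (hy : ∀ t i, HasDerivAt (fun s => y s i) (z t i) t)
    (hz : ∀ t i, HasDerivAt (fun s => z s i) ((Km g (Φ t f) *ᵥ y t) i) t) :
    IsJac g (fun t => (Φ t f).pt) (Jf Φ f y) := by
  intro a t ha
  have hc : Continuous (fun t => (Φ t f).pt) :=
    Fr.continuous_pt.comp (hΦ.continuous_left f)
  have hev : ∀ᶠ r in 𝓝 t, (Φ r f).pt ∈ (chartAt (EV (m + 1)) a).source :=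
    hc.continuousAt.preimage_mem_nhds ((chartAt (EV (m + 1)) a).open_source.mem_nhds ha)
  have hf : ∀ r, (Φ r f).pt ∈ (chartAt (EV (m + 1)) a).source →
      fieldIn (fun t => (Φ t f).pt) (Jf Φ f y) a =ᶠ[𝓝 r]
        fun r => ∑ i, y r i • ec a (Φ r f) i.succ := by
    intro r hr
    filter_upwards [hc.continuousAt.preimage_mem_nhds
      ((chartAt (EV (m + 1)) a).open_source.mem_nhds hr)] with s hs
    exact fieldIn_Jf f y a s hs
  have hcov : ∀ r, (Φ r f).pt ∈ (chartAt (EV (m + 1)) a).source →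
      CovDer (coefIn g a) (curveIn (fun t => (Φ t f).pt) a)
        (fieldIn (fun t => (Φ t f).pt) (Jf Φ f y) a) r = ∑ i, z r i • ec a (Φ r f) i.succ := by
    intro r hr
    have h1 := (cov_sum hΦ f a hr (y := y) (z := z r) (fun i => hy r i)).2
    rw [← h1]
    exact covDer_congr (hf r hr)
  have hcove : CovDer (coefIn g a) (curveIn (fun t => (Φ t f).pt) a)
        (fieldIn (fun t => (Φ t f).pt) (Jf Φ f y) a) =ᶠ[𝓝 t]
        fun r => ∑ i, z r i • ec a (Φ r f) i.succ := by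
    filter_upwards [hev] with r hr using hcov r hr
  have h4 := cov_sum hΦ f a ha (y := z) (z := Km g (Φ t f) *ᵥ y t) (fun i => hz t i)
  have h2 : HasDerivAt (curveIn (E := EV (m + 1)) (fun t => (Φ t f).pt) a) (ec a (Φ t f) 0) t :=
    (hΦ f).2.deriv_cc ha
  refine ⟨((hf t ha).differentiableAt_iff).2 (cov_sum hΦ f a ha (fun i => hy t i)).1,
    (hcove.differentiableAt_iff).2 h4.1, ?_⟩
  have h5 : CovDer (coefIn g a) (curveIn (fun t => (Φ t f).pt) a)
      (CovDer (coefIn g a) (curveIn (fun t => (Φ t f).pt) a)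
        (fieldIn (fun t => (Φ t f).pt) (Jf Φ f y) a)) t =
      ∑ i, (Km g (Φ t f) *ᵥ y t) i • ec a (Φ t f) i.succ := by
    rw [← h4.2]
    exact covDer_congr hcove
  rw [h5, (hf t ha).self_of_nhds, h2.deriv]
  have h6 : Riem (coefIn g a) (curveIn (E := EV (m + 1)) (fun t => (Φ t f).pt) a t)
      (∑ i, y t i • ec a (Φ t f) i.succ) (ec a (Φ t f) 0) (ec a (Φ t f) 0) =
      D1.curvT ((mt g).coef a) (chF a (Φ t f).1).1
        (∑ i, y t i • ec a (Φ t f) i.succ) (ec a (Φ t f) 0) (ec a (Φ t f) 0) :=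
    D1.riem_mt g a ((chartAt (EV (m + 1)) a).map_source ha) _ _ _
  rw [h6]
  have h7 : D1.curvT ((mt g).coef a) (chF a (Φ t f).1).1
        (∑ i, y t i • ec a (Φ t f) i.succ) (ec a (Φ t f) 0) (ec a (Φ t f) 0) =
      ∑ i, y t i • -(∑ j : Fin m, Km g (Φ t f) i j • ec a (Φ t f) j.succ) := by
    simp only [map_sum, map_smul, sum_apply, smul_apply]
    exact Finset.sum_congr rfl fun i _ => by rw [curv_ec a (Φ t f) ha i]
  rw [h7]
  simp only [smul_neg, Finset.sum_neg_distrib, Finset.smul_sum]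
  rw [Finset.sum_comm, add_neg_eq_zero]
  refine Finset.sum_congr rfl fun j _ => ?_
  rw [Matrix.mulVec, dotProduct, Finset.sum_smul]
  refine Finset.sum_congr rfl fun i _ => ?_
  rw [smul_smul]
  congr 1
  have h8 : Km g (Φ t f) i j = Km g (Φ t f) j i :=
    congrFun (congrFun (Km_symm (Φ t f)) j) i
  rw [h8, mul_comm]


/-! ### velocities and lengths -/

theorem velo_frame (hΦ : IsHorFlow g (Pi.single 0 1) Φ) (f : Fr g) (t : ℝ) :
    (P207F.velo (E := EV (m + 1)) (fun t => (Φ t f).pt) t : EV (m + 1)) = (Φ t f).e 0 := by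
  have h1 := mfderiv_curve (hΦ f).2.isGeodesic t
  have ha : (Φ t f).pt ∈ (chartAt (EV (m + 1)) (Φ t f).pt).source := mem_chart_source _ _
  have h2 := ((hΦ f).2.deriv_cc ha).deriv
  refine h1.trans (h2.trans ?_)
  exact P255.fderiv_trans_self (Φ t f).pt (mem_chart_target (EV (m + 1)) (Φ t f).pt) _

theorem unitGeo_frame (hΦ : IsHorFlow g (Pi.single 0 1) Φ) (f : Fr g) :
    P207F.IsUnitGeo g (fun t => (Φ t f).pt) := by
  refine ⟨isGeo_of_isGeodesic (hΦ f).2.isGeodesic, fun t => ?_⟩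
  have h1 := velo_frame hΦ f t
  have h2 : innerB g (Φ t f).pt ((Φ t f).e 0) ((Φ t f).e 0) = 1 := by
    have h3 := (Φ t f).inner_e 0 0
    rw [if_pos rfl] at h3
    exact h3
  rw [← h1] at h2
  exact h2

theorem inner_Jf (f : Fr g) (y : ℝ → Fin m → ℝ) (t : ℝ) :
    innerAt g (Φ t f).pt (Jf Φ f y t) (Jf Φ f y t) = y t ⬝ᵥ y t :=
  H832.N4.inner_sum (Φ t f) (y t)

theorem len_Jf (f : Fr g) (y : ℝ → Fin m → ℝ) (t : ℝ) :
    P207F.len g (fun t => (Φ t f).pt) (Jf Φ f y) t = Real.sqrt (y t ⬝ᵥ y t) := by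
  unfold P207F.len
  rw [inner_Jf]

/-- **The solutions of `y' = U y` are the unstable Jacobi fields.** -/
theorem unst_frame [T2Space M] (hΦ : IsHorFlow g (Pi.single 0 1) Φ) {lam B : ℝ}
    {U : Fr g → Matrix (Fin m) (Fin m) ℝ} (hU : IsUR Φ lam B U) (f : Fr g)
    {y : ℝ → Fin m → ℝ} (hy : ∀ t i, HasDerivAt (fun s => y s i) ((U (Φ t f) *ᵥ y t) i) t) :
    P207F.IsUnst g (fun t => (Φ t f).pt) (Jf Φ f y) := by
  refine ⟨isJac_Jf hΦ f (z := fun t => U (Φ t f) *ᵥ y t) hy (fun t i => ?_), fun t => ?_, ?_⟩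
  · have h1 : HasDerivAt (fun s => ∑ j, U (Φ s f) i j * y s j)
        (∑ j, ((Km g (Φ t f) i j - (U (Φ t f) * U (Φ t f)) i j) * y t j +
          U (Φ t f) i j * (U (Φ t f) *ᵥ y t) j)) t :=
      HasDerivAt.fun_sum fun j _ => (hU.ric f t i j).mul (hy t j)
    refine h1.congr_deriv ?_
    simp only [sub_mul, Finset.sum_add_distrib, Finset.sum_sub_distrib]
    have h2 : ∑ j, (U (Φ t f) * U (Φ t f)) i j * y t j =
        ∑ j, U (Φ t f) i j * (U (Φ t f) *ᵥ y t) j := by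
      have h3 := congrFun (Matrix.mulVec_mulVec (y t) (U (Φ t f)) (U (Φ t f))) i
      exact h3.symm
    rw [h2]
    simp only [sub_add_cancel]
    rfl
  · have h1 := velo_frame hΦ f t
    have h2 := H832.N4.inner_sum_zero (Φ t f) (y t)
    rw [← h1] at h2
    exact h2
  · refine ⟨y 0 ⬝ᵥ y 0, fun t ht => ?_⟩
    have h0 : ∀ s, HasDerivAt (fun s => y s ⬝ᵥ y s) (2 * (y s ⬝ᵥ (U (Φ s f) *ᵥ y s))) s := by
      intro s
      have h1 : HasDerivAt (fun s => ∑ i, y s i * y s i)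
          (∑ i, ((U (Φ s f) *ᵥ y s) i * y s i + y s i * (U (Φ s f) *ᵥ y s) i)) s :=
        HasDerivAt.fun_sum fun i _ => (hy s i).mul (hy s i)
      refine h1.congr_deriv ?_
      rw [dotProduct, Finset.mul_sum]
      exact Finset.sum_congr rfl fun i _ => by ring
    have hm : Monotone fun s => y s ⬝ᵥ y s :=
      monotone_of_deriv_nonneg (fun s => (h0 s).differentiableAt) fun s => by
        rw [(h0 s).deriv]
        have h1 := hU.lo (Φ s f) (y s)
        have h2 : 0 ≤ y s ⬝ᵥ y s := Finset.sum_nonneg fun i _ => mul_self_nonneg _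
        have h3 := mul_nonneg hU.pos.le h2
        linarith
    have h1 := hm ht
    exact (inner_Jf f y t).le.trans h1

end Vale.Agent.P207.N4.H248J
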