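import Vale.Agent.P207.N4.Geo.CoreH
import Vale.Agent.P207.N4.H248.JFrame
import Vale.Agent.P207.N4.H547.RatD
import Vale.Agent.P207.N4.H709.DetR

/-!
# P207: the unstable Jacobi fields and the unstable derivative of the leaf structure

`growth_L`, `bunched_L` : conditions on the unstable Jacobi fields of `g`, read on `Dt L t x`.
-/

open scoped Manifold ContDiff ENNReal Topology Matrix
open Bundle MeasureTheory Set Filter

set_option maxSynthPendingDepth 3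
set_option linter.unusedSectionVars false

noncomputable section

namespace Vale.Agent.P207.N4.H248J

open Vale.Agent.P207.N3 Vale.Agent.P207.N4
open Vale.Agent.P207.N4.H77 (Dt)

variable [Dim]

open Vale.Agent.P255 (RMetric Npc)
open Vale.Agent.P207.Q Vale.Agent.P207.Q.H130 Vale.Agent.P207.Q.H892

variable {M : Type} [TopologicalSpace M] [ChartedSpace (EV (Dim.m + 1)) M]
  [IsManifold 𝓘(ℝ, EV (Dim.m + 1)) ∞ M] [CompactSpace M] [T2Space M]
  {g : RMetric (EV (Dim.m + 1)) M}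

variable {Γ X B : Type} [Group Γ] [MetricSpace X] [ProperSpace X] [MulAction Γ X]
  [IsIsometricSMul Γ X] [TopologicalSpace B] [CompactSpace B] [T2Space B] [MulAction Γ B]
  [ContinuousConstSMul Γ B]

/-- the frame map: the flow and `U` come from the frames of `M` -/
structure FrM {Φ : ℝ → Fr g → Fr g} (D : MDat g Φ) {L : Leaf Γ X B} (K : Metr L)
    (F : X → Fr g) : Prop where
  hor : IsHorFlow g (Pi.single 0 1) Φ
  flow : ∀ t x, F (L.φ t x) = Φ t (F x)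
  U_eq : ∀ x, K.U x = H618.cl (D.U (F x))

variable {Φ : ℝ → Fr g → Fr g} {D : MDat g Φ} {L : Leaf Γ X B} {K : Metr L} {F : X → Fr g}

/-- the coordinates of the unstable derivative -/
def yD (L : Leaf Γ X B) (x : X) (v : E2) (t : ℝ) : Fin Dim.m → ℝ := (Dt L t x v).ofLp

theorem hasDerivAt_yD (h : FrM D K F) (x : X) (v : E2) (t : ℝ) (i : Fin Dim.m) :
    HasDerivAt (fun s => yD L x v s i) ((D.U (Φ t (F x)) *ᵥ yD L x v t) i) t := by
  have h1 := (H547.RatD.hasDerivAt_Dt K x t).clm_apply (hasDerivAt_const t v)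
  have h2 : HasDerivAt (fun s => Dt L s x v) (K.U (L.φ t x) (Dt L t x v)) t := by
    refine h1.congr_deriv ?_
    simp
  have h4 := HasFDerivAt.comp_hasDerivAt t
    ((EuclideanSpace.proj (𝕜 := ℝ) i : E2 →L[ℝ] ℝ).hasFDerivAt (x := Dt L t x v)) h2
  have h3 : HasDerivAt (fun s => (Dt L s x v) i) ((K.U (L.φ t x) (Dt L t x v)) i) t := h4
  refine h3.congr_deriv ?_
  rw [h.U_eq, h.flow]
  rfl

theorem sqrt_yD (x : X) (v : E2) (t : ℝ) :
    Real.sqrt (yD L x v t ⬝ᵥ yD L x v t) = ‖Dt L t x v‖ := by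
  rw [EuclideanSpace.norm_eq]
  congr 1
  refine Finset.sum_congr rfl fun i _ => ?_
  rw [Real.norm_eq_abs, sq_abs, sq]
  rfl

/-- **The Jacobi field bridge.** -/
theorem jac_bridge (h : FrM D K F) (x : X) (v : E2) :
    P207F.IsUnitGeo g (fun t => (Φ t (F x)).pt) ∧
    P207F.IsUnst g (fun t => (Φ t (F x)).pt) (Jf Φ (F x) (yD L x v)) ∧
    ∀ t, P207F.len g (fun t => (Φ t (F x)).pt) (Jf Φ (F x) (yD L x v)) t = ‖Dt L t x v‖ :=
  ⟨unitGeo_frame h.hor (F x), unst_frame h.hor D.ur (F x) (hasDerivAt_yD h x v),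
    fun t => (len_Jf (F x) (yD L x v) t).trans (sqrt_yD x v t)⟩

theorem Dt_zero_apply (x : X) (v : E2) : Dt L 0 x v = v := by
  rw [H77.Dt_zero]
  rfl

theorem growth_L (h : FrM D K F) {a b : ℝ} (hG : P207F.Growth g a b) :
    ∃ C : ℝ, ∀ x v t, 0 ≤ t → Real.exp (a * t) * ‖v‖ ≤ C * ‖Dt L t x v‖ ∧
      ‖Dt L t x v‖ ≤ C * Real.exp (b * t) * ‖v‖ := by
  obtain ⟨C, hC⟩ := hG
  refine ⟨C, fun x v t ht => ?_⟩
  obtain ⟨h1, h2, h3⟩ := jac_bridge h x v
  have h4 := hC _ _ h1 h2 t ht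
  rwa [h3, h3, Dt_zero_apply] at h4

theorem bunched_L (h : FrM D K F) (hG : P207F.Bunched g) (x : X) :
    ∃ T : ℝ, 0 < T ∧ ∀ v w : E2, ‖v‖ = 1 → ‖w‖ = 1 →
      ‖Dt L T x v‖ < ‖Dt L T x w‖ ^ 2 := by
  obtain ⟨T, hT, hC⟩ := hG _ (jac_bridge h x 0).1
  refine ⟨T, hT, fun v w hv hw => ?_⟩
  obtain ⟨-, h2, h3⟩ := jac_bridge h x v
  obtain ⟨-, h2', h3'⟩ := jac_bridge h x w
  have h4 := hC _ _ h2 h2' (by rw [h3, Dt_zero_apply, hv]) (by rw [h3', Dt_zero_apply, hw])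
  rwa [h3, h3'] at h4

end Vale.Agent.P207.N4.H248J
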