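import Vale.Agent.P207.N4.Dim
import Vale.Agent.P207.H248.VarG

/-!
# P207, all dimensions: H248.VarG is dimension free, the old file is used unchanged (helper378)
-/
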